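import Mathlib
import Vale.Agent.Lib.P243.Defs
import Vale.Agent.Lib.P243.R3.Defs

/-!
# P243, `r_3 > 1/3`: module M3a (the bound `Ahat K (q - p) ≤ 3 vol K`)

Proof without gauges: for `0 < l < 1` the set `hom p l '' K + [0, (1 - l) (q - p)]` lies in `K`
and has volume `l ^ 3 * vol K + l ^ 2 * (1 - l) * Ahat K (q - p)`; let `l → 1`.
The three facts about `Ahat` that are used (shadow formula, existence of a perpendicular
orthonormal pair, homothety covariance) enter as hypotheses, in the exact form of the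
skeleton statements `M1a`, `M1b`, `M1e`.
-/

namespace Vale.Agent.Lib.P243.R3.H19

open MeasureTheory Set Vale.Agent.Lib.P243 Vale.Agent.Lib.P243.R3
open scoped Pointwise Topology

theorem hom_eq_homothety (c : E3) (r : ℝ) : hom c r = ⇑(AffineMap.homothety c r) := by
  funext x
  simp only [hom, AffineMap.homothety_apply, vsub_eq_sub, vadd_eq_add]
  abel

theorem volume_hom_image (c : E3) {r : ℝ} (hr : 0 ≤ r) (K : Set E3) :
    volume (hom c r '' K) = ENNReal.ofReal (r ^ 3) * volume K := by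
  rw [hom_eq_homothety, Measure.addHaar_image_homothety]
  congr 2
  rw [finrank_euclideanSpace_fin, abs_of_nonneg (pow_nonneg hr 3)]

theorem sweep_subset {K : Set E3} (hKv : Convex ℝ K) {p q : E3} (hp : p ∈ K) (hq : q ∈ K)
    {l : ℝ} (hl0 : 0 ≤ l) (hl1 : l ≤ 1) :
    hom p l '' K + segment ℝ (0 : E3) ((1 - l) • (q - p)) ⊆ K := by
  rintro z ⟨y, ⟨x, hx, rfl⟩, s, ⟨a, b, ha, hb, hab, rfl⟩, rfl⟩
  have hr : (1 - b) • p + b • q ∈ K := hKv hp hq (by linarith) hb (by ring)
  have hz : l • x + (1 - l) • ((1 - b) • p + b • q) ∈ K :=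
    hKv hx hr hl0 (by linarith) (by ring)
  have e : hom p l x + (a • (0 : E3) + b • ((1 - l) • (q - p)))
      = l • x + (1 - l) • ((1 - b) • p + b • q) := by
    simp only [hom]
    module
  simpa only [e] using hz

/-- `M3a` from the skeleton statements `M1a`, `M1b`, `M1e`. -/
theorem M3a_of
    (hM1a : ∀ {K : Set E3}, IsCompact K → Convex ℝ K → K.Nonempty → ∀ (a b : E3),
      OrthoPair a b → ∀ (w : E3), inner ℝ w a = 0 → inner ℝ w b = 0 →
        Ahat K w = ‖w‖ * (volume (planeCoords a b '' K)).toReal)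
    (hM1b : ∀ w : E3, ∃ a b : E3, OrthoPair a b ∧ inner ℝ w a = 0 ∧ inner ℝ w b = 0)
    (hM1e : ∀ (c : E3) {r : ℝ}, 0 < r → ∀ (K : Set E3) (w : E3),
      Ahat (hom c r '' K) (r • w) = r ^ 3 * Ahat K w)
    {K : Set E3} (hK : Body K) {p q : E3} (hp : p ∈ K) (hq : q ∈ K) :
    Ahat K (q - p) ≤ 3 * (volume K).toReal := by
  obtain ⟨a, b, hab, hwa, hwb⟩ := hM1b (q - p)
  have hKn : K.Nonempty := ⟨p, hp⟩
  have hfin : volume K ≠ ⊤ := hK.compact.measure_lt_top.ne
  -- homogeneity of `Ahat K` along the ray of `q - p`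
  have hhom : ∀ t : ℝ, 0 ≤ t → Ahat K (t • (q - p)) = t * Ahat K (q - p) := by
    intro t ht
    rw [hM1a hK.compact hK.conv hKn a b hab (t • (q - p))
        (by rw [inner_smul_left, hwa, mul_zero]) (by rw [inner_smul_left, hwb, mul_zero]),
      hM1a hK.compact hK.conv hKn a b hab (q - p) hwa hwb, norm_smul, Real.norm_eq_abs,
      abs_of_nonneg ht]
    ring
  -- the inequality for every `0 < l < 1`
  have key : ∀ l : ℝ, 0 < l → l < 1 →
      l ^ 2 * Ahat K (q - p) ≤ (1 + l + l ^ 2) * (volume K).toReal := by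
    intro l hl0 hl1
    have hsub := sweep_subset hK.conv hp hq hl0.le hl1.le
    have hmono : volume (hom p l '' K + segment ℝ (0 : E3) ((1 - l) • (q - p))) ≤ volume K :=
      measure_mono hsub
    have hle : (volume (hom p l '' K + segment ℝ (0 : E3) ((1 - l) • (q - p)))).toReal
        ≤ (volume K).toReal := ENNReal.toReal_mono hfin hmono
    have hA : Ahat (hom p l '' K) ((1 - l) • (q - p)) = l ^ 2 * (1 - l) * Ahat K (q - p) := by
      have e : (1 - l) • (q - p) = l • (((1 - l) / l) • (q - p)) := by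
        rw [smul_smul, mul_div_cancel₀ _ hl0.ne']
      rw [e, hM1e p hl0 K, hhom _ (div_nonneg (by linarith) hl0.le)]
      field_simp
    have hV : (volume (hom p l '' K)).toReal = l ^ 3 * (volume K).toReal := by
      rw [volume_hom_image p hl0.le, ENNReal.toReal_mul,
        ENNReal.toReal_ofReal (pow_nonneg hl0.le 3)]
    have hdef : Ahat (hom p l '' K) ((1 - l) • (q - p))
        = (volume (hom p l '' K + segment ℝ (0 : E3) ((1 - l) • (q - p)))).toReal
          - (volume (hom p l '' K)).toReal := rfl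
    have h1 : l ^ 2 * (1 - l) * Ahat K (q - p) + l ^ 3 * (volume K).toReal
        ≤ (volume K).toReal := by
      rw [← hA, ← hV, hdef]
      linarith
    have h2 : (1 - l) * (l ^ 2 * Ahat K (q - p))
        ≤ (1 - l) * ((1 + l + l ^ 2) * (volume K).toReal) := by
      nlinarith
    exact le_of_mul_le_mul_left h2 (by linarith)
  -- let `l → 1`
  have hlim1 : Filter.Tendsto (fun l : ℝ => l ^ 2 * Ahat K (q - p)) (𝓝[<] 1)
      (𝓝 ((1 : ℝ) ^ 2 * Ahat K (q - p))) :=
    (Continuous.tendsto (by fun_prop) 1).mono_left nhdsWithin_le_nhds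
  have hlim2 : Filter.Tendsto (fun l : ℝ => (1 + l + l ^ 2) * (volume K).toReal) (𝓝[<] 1)
      (𝓝 ((1 + 1 + (1 : ℝ) ^ 2) * (volume K).toReal)) :=
    (Continuous.tendsto (by fun_prop) 1).mono_left nhdsWithin_le_nhds
  have hev : ∀ᶠ l in 𝓝[<] (1 : ℝ),
      l ^ 2 * Ahat K (q - p) ≤ (1 + l + l ^ 2) * (volume K).toReal := by
    have hmem : Set.Ioo (0 : ℝ) 1 ∈ 𝓝[<] (1 : ℝ) := Ioo_mem_nhdsLT (by norm_num)
    filter_upwards [hmem] with l hl
    exact key l hl.1 hl.2
  have hfinal := le_of_tendsto_of_tendsto hlim1 hlim2 hev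
  linarith

end Vale.Agent.Lib.P243.R3.H19
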