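import Mathlib
import Vale.Agent.Lib.P243.Defs
import Vale.Agent.Lib.P243.R3.Defs
import Vale.Agent.Lib.P243.R3.helper19.M3a

/-!
# P243, `r_3 > 1/3`: auxiliary lemmas for the equality case `M3b` (sweep argument)
-/

namespace Vale.Agent.Lib.P243.R3.H19

open MeasureTheory Set Vale.Agent.Lib.P243 Vale.Agent.Lib.P243.R3
open scoped Pointwise Topology

/-- `Deep K ρ z`: the closed ball of radius `ρ` about `z` lies in `K`. -/
def Deep (K : Set E3) (ρ : ℝ) (z : E3) : Prop := ∀ u : E3, ‖u‖ ≤ ρ → z + u ∈ K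

theorem Deep.mono {K : Set E3} {ρ ρ' : ℝ} {z : E3} (h : Deep K ρ z) (hρ : ρ' ≤ ρ) :
    Deep K ρ' z := fun u hu => h u (hu.trans hρ)

theorem Deep.mem {K : Set E3} {ρ : ℝ} {z : E3} (h : Deep K ρ z) (hρ : 0 ≤ ρ) : z ∈ K := by
  have := h 0 (by simpa using hρ)
  simpa using this

theorem Deep.shift {K : Set E3} {ρ δ : ℝ} {z z' : E3} (h : Deep K ρ z) (hz : ‖z' - z‖ ≤ δ) :
    Deep K (ρ - δ) z' := by
  intro u hu
  have e : z' + u = z + ((z' - z) + u) := by abel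
  rw [e]
  apply h
  calc ‖(z' - z) + u‖ ≤ ‖z' - z‖ + ‖u‖ := norm_add_le _ _
    _ ≤ δ + (ρ - δ) := add_le_add hz hu
    _ = ρ := by ring

theorem Deep.combo {K : Set E3} (hKv : Convex ℝ K) {ρ : ℝ} {z k : E3} (h : Deep K ρ z)
    (hk : k ∈ K) {t : ℝ} (ht0 : 0 ≤ t) (ht1 : t ≤ 1) :
    Deep K (t * ρ) ((1 - t) • k + t • z) := by
  intro u hu
  rcases ht0.eq_or_lt with rfl | htpos
  · have hu0 : u = 0 := by
      rw [zero_mul] at hu
      exact norm_le_zero_iff.mp hu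
    subst hu0
    simpa using hk
  · have h1 : z + (1 / t) • u ∈ K := by
      apply h
      rw [norm_smul, Real.norm_eq_abs, abs_of_pos (by positivity), one_div,
        inv_mul_le_iff₀ htpos]
      exact hu
    have h2 := hKv hk h1 (by linarith : (0 : ℝ) ≤ 1 - t) ht0 (by ring)
    have e : (1 - t) • k + t • z + u = (1 - t) • k + t • (z + (1 / t) • u) := by
      rw [smul_add, smul_smul, mul_one_div_cancel htpos.ne', one_smul]
      abel
    rw [e]
    exact h2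

theorem Deep.convex {K : Set E3} (hKv : Convex ℝ K) {ρ : ℝ} {z z' : E3} (h : Deep K ρ z)
    (h' : Deep K ρ z') {α : ℝ} (hα0 : 0 ≤ α) (hα1 : α ≤ 1) :
    Deep K ρ (α • z + (1 - α) • z') := by
  intro u hu
  have h2 := hKv (h u hu) (h' u hu) hα0 (by linarith : (0 : ℝ) ≤ 1 - α) (by ring)
  have e : α • z + (1 - α) • z' + u = α • (z + u) + (1 - α) • (z' + u) := by module
  rw [e]
  exact h2

/-- A segment from a point `r` of `[p, q]` to `x` meets the segment between a point of `[p, x)`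
and a point of `[q, x)`. -/
theorem cross (p q x : E3) {s1 s2 θ : ℝ} (hs1 : 0 ≤ s1) (hs1' : s1 < 1) (hs2 : 0 ≤ s2)
    (hs2' : s2 < 1) (hθ0 : 0 ≤ θ) (hθ1 : θ ≤ 1) :
    ∃ α τ : ℝ, 0 ≤ α ∧ α ≤ 1 ∧ 0 ≤ τ ∧ τ ≤ 1 ∧
      α • (p + s1 • (x - p)) + (1 - α) • (q + s2 • (x - q))
        = ((1 - θ) • p + θ • q) + τ • (x - ((1 - θ) • p + θ • q)) := by
  have hden : 0 < (1 - θ) * (1 - s2) + θ * (1 - s1) := by
    rcases hθ0.eq_or_lt with rfl | hθpos
    · simp only [sub_zero, one_mul, zero_mul, add_zero]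
      linarith
    · have h1 : 0 < θ * (1 - s1) := mul_pos hθpos (by linarith)
      have h2 : 0 ≤ (1 - θ) * (1 - s2) := mul_nonneg (by linarith) (by linarith)
      linarith
  obtain ⟨α, hα⟩ : ∃ α : ℝ, α = (1 - θ) * (1 - s2) / ((1 - θ) * (1 - s2) + θ * (1 - s1)) :=
    ⟨_, rfl⟩
  have hα0 : 0 ≤ α := by
    rw [hα]
    exact div_nonneg (mul_nonneg (by linarith) (by linarith)) hden.le
  have hα1 : α ≤ 1 := by
    rw [hα, div_le_one hden]
    have : 0 ≤ θ * (1 - s1) := mul_nonneg hθ0 (by linarith)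
    linarith
  have hαd : α * ((1 - θ) * (1 - s2) + θ * (1 - s1)) = (1 - θ) * (1 - s2) := by
    rw [hα, div_mul_cancel₀ _ hden.ne']
  obtain ⟨τ, hτ⟩ : ∃ τ : ℝ, τ = α * s1 + (1 - α) * s2 := ⟨_, rfl⟩
  have hτ0 : 0 ≤ τ := by
    rw [hτ]
    exact add_nonneg (mul_nonneg hα0 hs1) (mul_nonneg (by linarith) hs2)
  have hτ1 : τ ≤ 1 := by
    rw [hτ]
    nlinarith
  -- the two scalar identities
  have key : (1 - τ) * ((1 - θ) * (1 - s2) + θ * (1 - s1)) = (1 - s1) * (1 - s2) := by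
    rw [hτ]
    linear_combination ((1 - s1) - (1 - s2)) * hαd
  have h1 : α * (1 - s1) = (1 - τ) * (1 - θ) := by
    have : α * (1 - s1) * ((1 - θ) * (1 - s2) + θ * (1 - s1))
        = (1 - τ) * (1 - θ) * ((1 - θ) * (1 - s2) + θ * (1 - s1)) := by
      linear_combination (1 - s1) * hαd - (1 - θ) * key
    exact mul_right_cancel₀ hden.ne' this
  have h2 : (1 - α) * (1 - s2) = (1 - τ) * θ := by
    have : (1 - α) * (1 - s2) * ((1 - θ) * (1 - s2) + θ * (1 - s1))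
        = (1 - τ) * θ * ((1 - θ) * (1 - s2) + θ * (1 - s1)) := by
      linear_combination (-(1 - s2)) * hαd - θ * key
    exact mul_right_cancel₀ hden.ne' this
  refine ⟨α, τ, hα0, hα1, hτ0, hτ1, ?_⟩
  have e1 : α • (p + s1 • (x - p)) + (1 - α) • (q + s2 • (x - q))
      = (α * (1 - s1)) • p + ((1 - α) * (1 - s2)) • q + (α * s1 + (1 - α) * s2) • x := by
    module
  have e2 : ((1 - θ) • p + θ • q) + τ • (x - ((1 - θ) • p + θ • q))
      = ((1 - τ) * (1 - θ)) • p + ((1 - τ) * θ) • q + τ • x := by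
    module
  rw [e1, e2, h1, h2, ← hτ]

/-- A point of the swept copy `l K + (1 - l) [p, q]` is `l k + (1 - l) r` with `k ∈ K` and
`r ∈ [p, q]`; so the point `r + (y - r) / l` lies in `K`. -/
theorem exists_of_mem_sweep {K : Set E3} {p q : E3} {l : ℝ} (hl0 : 0 < l) {y : E3}
    (hy : y ∈ hom p l '' K + segment ℝ (0 : E3) ((1 - l) • (q - p))) :
    ∃ θ : ℝ, 0 ≤ θ ∧ θ ≤ 1 ∧
      ((1 - θ) • p + θ • q) + (1 / l) • (y - ((1 - θ) • p + θ • q)) ∈ K := by
  obtain ⟨_, ⟨k, hk, rfl⟩, _, ⟨a, b, ha, hb, hab, rfl⟩, rfl⟩ := hy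
  refine ⟨b, hb, by linarith, ?_⟩
  have e1 : hom p l k + (a • (0 : E3) + b • ((1 - l) • (q - p))) - ((1 - b) • p + b • q)
      = l • (k - ((1 - b) • p + b • q)) := by
    simp only [hom]
    module
  rw [e1, smul_smul, one_div_mul_cancel hl0.ne', one_smul, add_sub_cancel]
  exact hk

end Vale.Agent.Lib.P243.R3.H19
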