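import Mathlib
import Vale.Agent.Lib.P243.Defs
import Vale.Agent.Lib.P243.R3.Defs
import Vale.Agent.Lib.P243.R3.helper19.M3a
import Vale.Agent.Lib.P243.R3.helper19.M3bAux

/-!
# P243, `r_3 > 1/3`: the geometric core of the equality case `M3b` (sweep argument)

If `z1 ∈ [p, x)` and `z2 ∈ [q, x)` are interior points of `K` (closed balls of radius `ρ` about
them lie in `K`), `y = z1 + t (b - z1)` is a point of `K` on a ray from `z1` through a point `b`
outside `K` close to `x`, and `y` lies in the swept copy `l K + (1 - l) [p, q]`, then the point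
`z1 + (y - z1) / μ` with `μ = 1 - ρ / (8 D) (1 - l)` is still in `K`.
-/

namespace Vale.Agent.Lib.P243.R3.H19

open MeasureTheory Set Vale.Agent.Lib.P243 Vale.Agent.Lib.P243.R3
open scoped Pointwise Topology

section identities

variable {E : Type*} [AddCommGroup E] [Module ℝ E]

theorem id_a (z1 b y : E) (t : ℝ) (ht : t ≠ 0) (hy : y = z1 + t • (b - z1)) :
    b = (1 - 1 / t) • z1 + (1 / t) • y := by
  have e : (1 / t) • (t • (b - z1)) = b - z1 := by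
    rw [smul_smul, one_div_mul_cancel ht, one_smul]
  rw [hy, smul_add, e]
  module

theorem id_b (z1 b x : E) (t : ℝ) :
    z1 + t • (b - z1) - ((1 - (1 - t)) • x + (1 - t) • z1) = t • (b - x) := by
  module

theorem id_c (r z1 b x : E) (t τ : ℝ) :
    (r + τ • (z1 + t • (b - z1) - r))
        - ((1 - t) • ((1 - τ) • r + τ • z1) + t • (r + τ • (x - r)))
      = (τ * t) • (b - x) := by
  module

theorem id_d (r y : E) (θ' li τ : ℝ) :
    (1 - θ') • (r + li • (y - r)) + θ' • (r + τ • (y - r))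
      = r + ((1 - θ') * li + θ' * τ) • (y - r) := by
  module

theorem id_e (z1 y : E) (m : ℝ) : z1 + m • (y - z1) = y + (m - 1) • (y - z1) := by
  module

end identities

/-- The parameter `t` of a point of `K` on a ray from `z1` through a point outside `K`. -/
theorem core_t_lt_one {K : Set E3} (hKv : Convex ℝ K) {z1 y b : E3} (hz1K : z1 ∈ K) {t : ℝ}
    (hbK : b ∉ K) (hy : y = z1 + t • (b - z1)) (hyK : y ∈ K) : t < 1 := by
  by_contra hge
  rw [not_lt] at hge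
  have htpos : 0 < t := by linarith
  apply hbK
  rw [id_a z1 b y t htpos.ne' hy]
  exact hKv hz1K hyK (by rw [sub_nonneg, div_le_one htpos]; exact hge) (by positivity)
    (by ring)

/-- A deep point on the segment from `r ∈ [p, q]` to `y`. -/
theorem core_witness {K : Set E3} (hKv : Convex ℝ K) {p q x z1 z2 : E3} (hp : p ∈ K)
    (hq : q ∈ K) (hxK : x ∈ K) {s1 s2 : ℝ} (hs1 : 0 ≤ s1) (hs1' : s1 < 1) (hs2 : 0 ≤ s2)
    (hs2' : s2 < 1) (hz1 : z1 = p + s1 • (x - p)) (hz2 : z2 = q + s2 • (x - q))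
    {ρ : ℝ} (hρ : 0 < ρ) (hd1 : Deep K ρ z1) (hd2 : Deep K ρ z2)
    {y b : E3} {t : ℝ} (ht0 : 0 ≤ t) (ht1 : t < 1) (hbx : ‖b - x‖ ≤ ρ / 4)
    (hy : y = z1 + t • (b - z1)) {θ : ℝ} (hθ0 : 0 ≤ θ) (hθ1 : θ ≤ 1) :
    ∃ τ : ℝ, 0 ≤ τ ∧ τ ≤ 1 ∧
      Deep K (3 * ρ / 8) (((1 - θ) • p + θ • q) + τ • (y - ((1 - θ) • p + θ • q))) := by
  have hz1K : z1 ∈ K := hd1.mem hρ.le
  have hnbx : 0 ≤ ‖b - x‖ := norm_nonneg _
  obtain ⟨r, hr⟩ : ∃ r : E3, r = (1 - θ) • p + θ • q := ⟨_, rfl⟩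
  rw [← hr]
  have hrK : r ∈ K := by
    rw [hr]
    exact hKv hp hq (by linarith) hθ0 (by ring)
  rcases le_or_gt t (1 / 2) with hthalf | hthalf
  · refine ⟨1, zero_le_one, le_refl _, ?_⟩
    have e : r + (1 : ℝ) • (y - r) = y := by rw [one_smul, add_sub_cancel]
    rw [e]
    have hc := Deep.combo hKv hd1 hxK (t := 1 - t) (by linarith) (by linarith)
    have hnorm : ‖y - ((1 - (1 - t)) • x + (1 - t) • z1)‖ ≤ ρ / 8 := by
      rw [hy, id_b z1 b x t, norm_smul, Real.norm_eq_abs, abs_of_nonneg ht0]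
      nlinarith
    exact (hc.shift hnorm).mono (by nlinarith)
  · obtain ⟨α, τ, hα0, hα1, hτ0, hτ1, hcross⟩ := cross p q x hs1 hs1' hs2 hs2' hθ0 hθ1
    rw [← hz1, ← hz2, ← hr] at hcross
    have hdz : Deep K ρ (r + τ • (x - r)) := by
      rw [← hcross]
      exact Deep.convex hKv hd1 hd2 hα0 hα1
    have hk' : (1 - τ) • r + τ • z1 ∈ K := hKv hrK hz1K (by linarith) hτ0 (by ring)
    have hc := Deep.combo hKv hdz hk' ht0 ht1.le
    refine ⟨τ, hτ0, hτ1, ?_⟩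
    have hnorm : ‖(r + τ • (y - r))
        - ((1 - t) • ((1 - τ) • r + τ • z1) + t • (r + τ • (x - r)))‖ ≤ t * (ρ / 4) := by
      rw [hy, id_c r z1 b x t τ, norm_smul, Real.norm_eq_abs,
        abs_of_nonneg (mul_nonneg hτ0 ht0)]
      have h1 : τ * t * ‖b - x‖ ≤ 1 * t * ‖b - x‖ :=
        mul_le_mul_of_nonneg_right (mul_le_mul_of_nonneg_right hτ1 ht0) hnbx
      have h2 : t * ‖b - x‖ ≤ t * (ρ / 4) := mul_le_mul_of_nonneg_left hbx ht0
      linarith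
    exact (hc.shift hnorm).mono (by nlinarith)

/-- If a point `ζ = r + τ (y - r)` is deep and `r + (y - r) / l ∈ K`, then `y` is deep with
radius proportional to `1 - l`. -/
theorem core_deep_y {K : Set E3} (hKv : Convex ℝ K) {r y : E3} {ρ' τ l : ℝ} (hρ' : 0 ≤ ρ')
    (hτ0 : 0 ≤ τ) (hτ1 : τ ≤ 1) (hl0 : 0 < l) (hl1 : l < 1)
    (hζ : Deep K ρ' (r + τ • (y - r))) (hY : r + (1 / l) • (y - r) ∈ K) :
    Deep K ((1 - l) * ρ') y := by
  have h1τl : 0 < 1 - τ * l := by nlinarith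
  obtain ⟨θ', hθ'⟩ : ∃ θ' : ℝ, θ' = (1 - l) / (1 - τ * l) := ⟨_, rfl⟩
  have hθ'0 : 0 ≤ θ' := by
    rw [hθ']
    exact div_nonneg (by linarith) h1τl.le
  have hθ'1 : θ' ≤ 1 := by
    rw [hθ', div_le_one h1τl]
    nlinarith
  have hθ'l : 1 - l ≤ θ' := by
    rw [hθ', le_div_iff₀ h1τl]
    nlinarith [mul_nonneg (mul_nonneg (by linarith : (0 : ℝ) ≤ 1 - l) hτ0) hl0.le]
  have hne1 : 1 - τ * l ≠ 0 := h1τl.ne'
  have hne2 : l ≠ 0 := hl0.ne'
  have hθ'eq : θ' * (1 - τ * l) = 1 - l := by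
    rw [hθ']
    exact div_mul_cancel₀ _ hne1
  have hsc : (1 - θ') * (1 / l) + θ' * τ = 1 := by
    have e0 : (1 - θ') * (1 / l) + θ' * τ = ((1 - θ') + θ' * τ * l) / l := by
      field_simp
    rw [e0, div_eq_one_iff_eq hne2]
    linear_combination -hθ'eq
  have hc := Deep.combo hKv hζ hY hθ'0 hθ'1
  have e : (1 - θ') • (r + (1 / l) • (y - r)) + θ' • (r + τ • (y - r)) = y := by
    rw [id_d r y θ' (1 / l) τ, hsc, one_smul, add_sub_cancel]
  rw [e] at hc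
  exact hc.mono (mul_le_mul_of_nonneg_right hθ'l hρ')

/-- The outward push of a deep point stays in `K`. -/
theorem core_final {K : Set E3} {z1 y : E3} {ρ D l : ℝ} (hρ : 0 < ρ) (hD : ρ ≤ D)
    (hyD : ‖y - z1‖ ≤ D) (hl0 : 0 ≤ l) (hl1 : l < 1)
    (hyd : Deep K ((1 - l) * (3 * ρ / 8)) y) :
    z1 + (1 / (1 - ρ / (8 * D) * (1 - l))) • (y - z1) ∈ K := by
  have hDpos : 0 < D := lt_of_lt_of_le hρ hD
  obtain ⟨c, hc⟩ : ∃ c : ℝ, c = ρ / (8 * D) := ⟨_, rfl⟩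
  rw [← hc]
  obtain ⟨μ, hμ⟩ : ∃ μ : ℝ, μ = 1 - c * (1 - l) := ⟨_, rfl⟩
  rw [← hμ]
  have hc0 : 0 < c := by
    rw [hc]
    positivity
  have hc8 : c ≤ 1 / 8 := by
    rw [hc, div_le_iff₀ (by positivity)]
    linarith
  have hl0' : 0 ≤ 1 - l := by linarith
  have hμ1 : μ ≤ 1 := by
    rw [hμ]
    nlinarith [mul_nonneg hc0.le hl0']
  have hcD : c * D = ρ / 8 := by
    rw [hc]
    field_simp
  have hμ78 : 7 / 8 ≤ μ := by
    rw [hμ]
    nlinarith
  have hμ0 : 0 < μ := by linarith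
  rw [id_e z1 y (1 / μ)]
  apply hyd
  have h1 : 1 / μ - 1 = c * (1 - l) / μ := by
    have h0 : c * (1 - l) = 1 - μ := by
      rw [hμ]
      ring
    rw [h0]
    field_simp
  rw [norm_smul, Real.norm_eq_abs, abs_of_nonneg (by rw [h1]; positivity), h1,
    div_mul_eq_mul_div, div_le_iff₀ hμ0]
  have h2 : c * (1 - l) * ‖y - z1‖ ≤ c * (1 - l) * D :=
    mul_le_mul_of_nonneg_left hyD (mul_nonneg hc0.le hl0')
  have h3 : 0 ≤ (1 - l) * ρ * (μ - 7 / 8) :=
    mul_nonneg (mul_nonneg hl0' hρ.le) (by linarith)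
  have h4 : c * (1 - l) * D = (1 - l) * (ρ / 8) := by
    rw [← hcD]
    ring
  nlinarith

end Vale.Agent.Lib.P243.R3.H19
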