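import Mathlib
import Vale.Agent.Lib.P243.Defs
import Vale.Agent.Lib.P243.R3.Defs
import Vale.Agent.Lib.P243.R3.helper19.M3a
import Vale.Agent.Lib.P243.R3.helper19.M3bAux
import Vale.Agent.Lib.P243.R3.helper19.M3bCore

/-!
# P243, `r_3 > 1/3`: module M3b (equality case of `Ahat K (q - p) ≤ 3 vol K`), sweep argument

If `Ahat K (q - p) = 3 vol K`, then the swept copy `S_l = l K + (1 - l) [p, q]` of `K` (which
lies in `K`) misses only a volume `vol K * (1 - l) ^ 2 * (1 + 2 l)` of `K`.  If a boundary point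
`x` had interior points of `K` on both segments `[p, x]` and `[q, x]`, a cone `Q` of positive
volume with apex at one of them would satisfy `vol (K \ S_l) ≥ c (1 - l) vol Q`; contradiction
as `l → 1`.  The facts about `Ahat` enter as hypotheses in the form of the skeleton statements
`M1a`, `M1b`, `M1e`.
-/

namespace Vale.Agent.Lib.P243.R3.H19

open MeasureTheory Set Vale.Agent.Lib.P243 Vale.Agent.Lib.P243.R3
open scoped Pointwise Topology

/-- The volume of the swept copy `l K + (1 - l) [p, q]`. -/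
theorem sweep_volume
    (hM1a : ∀ {K : Set E3}, IsCompact K → Convex ℝ K → K.Nonempty → ∀ (a b : E3),
      OrthoPair a b → ∀ (w : E3), inner ℝ w a = 0 → inner ℝ w b = 0 →
        Ahat K w = ‖w‖ * (volume (planeCoords a b '' K)).toReal)
    (hM1b : ∀ w : E3, ∃ a b : E3, OrthoPair a b ∧ inner ℝ w a = 0 ∧ inner ℝ w b = 0)
    (hM1e : ∀ (c : E3) {r : ℝ}, 0 < r → ∀ (K : Set E3) (w : E3),
      Ahat (hom c r '' K) (r • w) = r ^ 3 * Ahat K w)
    {K : Set E3} (hK : Body K) {p : E3} (hp : p ∈ K) (q : E3) {l : ℝ} (hl0 : 0 < l)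
    (hl1 : l < 1) :
    (volume (hom p l '' K + segment ℝ (0 : E3) ((1 - l) • (q - p)))).toReal
      = l ^ 3 * (volume K).toReal + l ^ 2 * (1 - l) * Ahat K (q - p) := by
  obtain ⟨a, b, hab, hwa, hwb⟩ := hM1b (q - p)
  have hKn : K.Nonempty := ⟨p, hp⟩
  have hhom : ∀ t : ℝ, 0 ≤ t → Ahat K (t • (q - p)) = t * Ahat K (q - p) := by
    intro t ht
    rw [hM1a hK.compact hK.conv hKn a b hab (t • (q - p))
        (by rw [inner_smul_left, hwa, mul_zero]) (by rw [inner_smul_left, hwb, mul_zero]),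
      hM1a hK.compact hK.conv hKn a b hab (q - p) hwa hwb, norm_smul, Real.norm_eq_abs,
      abs_of_nonneg ht]
    ring
  have hA : Ahat (hom p l '' K) ((1 - l) • (q - p)) = l ^ 2 * (1 - l) * Ahat K (q - p) := by
    have e : (1 - l) • (q - p) = l • (((1 - l) / l) • (q - p)) := by
      rw [smul_smul, mul_div_cancel₀ _ hl0.ne']
    rw [e, hM1e p hl0 K, hhom _ (div_nonneg (by linarith) hl0.le)]
    field_simp
  have hV : (volume (hom p l '' K)).toReal = l ^ 3 * (volume K).toReal := by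
    rw [volume_hom_image p hl0.le, ENNReal.toReal_mul,
      ENNReal.toReal_ofReal (pow_nonneg hl0.le 3)]
  have hdef : Ahat (hom p l '' K) ((1 - l) • (q - p))
      = (volume (hom p l '' K + segment ℝ (0 : E3) ((1 - l) • (q - p)))).toReal
        - (volume (hom p l '' K)).toReal := rfl
  linarith

theorem hom_continuous (c : E3) (r : ℝ) : Continuous (hom c r) := by
  unfold hom
  fun_prop

theorem sweep_compact {K : Set E3} (hKc : IsCompact K) (p v : E3) (l : ℝ) :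
    IsCompact (hom p l '' K + segment ℝ (0 : E3) v) := by
  apply IsCompact.add
  · exact hKc.image (hom_continuous p l)
  · rw [segment_eq_image]
    exact isCompact_Icc.image (by fun_prop)

/-- A point beyond a boundary point, seen from a deep point, is outside `K`. -/
theorem outer_point {K : Set E3} (hKv : Convex ℝ K) {x z1 : E3} (hxni : x ∉ interior K)
    {ρ : ℝ} (hρ : 0 < ρ) (hd1 : Deep K ρ z1) {δ : ℝ} (hδ : 0 < δ) :
    x + δ • (x - z1) ∉ K := by
  intro hxhK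
  apply hxni
  have h1δ : (0 : ℝ) < 1 + δ := by linarith
  have hc := Deep.combo hKv hd1 hxhK (t := δ / (1 + δ)) (by positivity)
    (by rw [div_le_one h1δ]; linarith)
  have e : (1 - δ / (1 + δ)) • (x + δ • (x - z1)) + (δ / (1 + δ)) • z1 = x := by
    have h1 : (1 - δ / (1 + δ)) = 1 / (1 + δ) := by
      field_simp
      ring
    have h2 : (1 / (1 + δ)) • (x + δ • (x - z1)) + (δ / (1 + δ)) • z1
        = ((1 / (1 + δ)) * (1 + δ)) • x + ((δ / (1 + δ)) - (1 / (1 + δ)) * δ) • z1 := by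
      module
    have h3 : δ / (1 + δ) - 1 / (1 + δ) * δ = 0 := by ring
    rw [h1, h2, one_div_mul_cancel h1δ.ne', one_smul, h3, zero_smul, add_zero]
  rw [e] at hc
  rw [mem_interior]
  refine ⟨Metric.ball x (δ / (1 + δ) * ρ), ?_, Metric.isOpen_ball,
    Metric.mem_ball_self (by positivity)⟩
  intro v hv
  rw [Metric.mem_ball, dist_eq_norm] at hv
  have h := hc (v - x) hv.le
  rw [add_sub_cancel] at h
  exact h

/-- The cone with apex `z1` over the ball of radius `κ` about `xh`. -/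
def coneSet (z1 xh : E3) (κ : ℝ) : Set E3 :=
  {y | ∃ t : ℝ, 0 ≤ t ∧ ∃ b ∈ Metric.ball xh κ, y = z1 + t • (b - z1)}

theorem cone_pos {K : Set E3} {z1 xh : E3} {ρ κ : ℝ} (hρ : 0 < ρ) (hκ : 0 < κ)
    (hd1 : Deep K ρ z1) : 0 < volume (K ∩ coneSet z1 xh κ) := by
  have hn : 0 ≤ ‖xh - z1‖ := norm_nonneg _
  obtain ⟨t0, ht0def⟩ : ∃ t0 : ℝ, t0 = ρ / (‖xh - z1‖ + κ + 1) := ⟨_, rfl⟩
  have ht0 : 0 < t0 := by
    rw [ht0def]
    positivity
  have ht0' : t0 * κ + t0 * ‖xh - z1‖ ≤ ρ := by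
    have h : t0 * (‖xh - z1‖ + κ + 1) = ρ := by
      rw [ht0def]
      field_simp
    nlinarith
  have hsub : Metric.ball (z1 + t0 • (xh - z1)) (t0 * κ) ⊆ K ∩ coneSet z1 xh κ := by
    intro u hu
    rw [Metric.mem_ball, dist_eq_norm] at hu
    constructor
    · have e0 : u = z1 + (u - z1) := by abel
      rw [e0]
      apply hd1
      have e : u - z1 = (u - (z1 + t0 • (xh - z1))) + t0 • (xh - z1) := by abel
      rw [e]
      calc ‖(u - (z1 + t0 • (xh - z1))) + t0 • (xh - z1)‖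
          ≤ ‖u - (z1 + t0 • (xh - z1))‖ + ‖t0 • (xh - z1)‖ := norm_add_le _ _
        _ ≤ t0 * κ + t0 * ‖xh - z1‖ := by
            apply add_le_add hu.le
            rw [norm_smul, Real.norm_eq_abs, abs_of_pos ht0]
        _ ≤ ρ := ht0'
    · refine ⟨t0, ht0.le, z1 + (1 / t0) • (u - z1), ?_, ?_⟩
      · rw [Metric.mem_ball, dist_eq_norm]
        have e1 : (1 / t0) • (t0 • (xh - z1)) = xh - z1 := by
          rw [smul_smul, one_div_mul_cancel ht0.ne', one_smul]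
        have e : z1 + (1 / t0) • (u - z1) - xh = (1 / t0) • (u - (z1 + t0 • (xh - z1))) := by
          have e2 : u - (z1 + t0 • (xh - z1)) = (u - z1) - t0 • (xh - z1) := by abel
          rw [e2, smul_sub (1 / t0) (u - z1), e1]
          abel
        rw [e, norm_smul, Real.norm_eq_abs, abs_of_pos (by positivity), one_div,
          inv_mul_lt_iff₀ ht0]
        exact hu
      · rw [add_sub_cancel_left, smul_smul, mul_one_div_cancel ht0.ne', one_smul,
          add_sub_cancel]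
  exact lt_of_lt_of_le (Metric.measure_ball_pos volume _ (by positivity)) (measure_mono hsub)

/-- Points of the cone that are not in the shrunk copy are missed by the swept copy. -/
theorem cone_incl {K : Set E3} (hKv : Convex ℝ K) {p q x z1 z2 xh : E3} (hp : p ∈ K)
    (hq : q ∈ K) (hxK : x ∈ K) {s1 s2 : ℝ} (hs1 : 0 ≤ s1) (hs1' : s1 < 1) (hs2 : 0 ≤ s2)
    (hs2' : s2 < 1) (hz1 : z1 = p + s1 • (x - p)) (hz2 : z2 = q + s2 • (x - q))
    {ρ κ : ℝ} (hρ : 0 < ρ) (hd1 : Deep K ρ z1) (hd2 : Deep K ρ z2)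
    {D : ℝ} (hD : ρ ≤ D) (hDK : ∀ y ∈ K, ‖y - z1‖ ≤ D)
    (hbK : ∀ b ∈ Metric.ball xh κ, b ∉ K) (hbx : ∀ b ∈ Metric.ball xh κ, ‖b - x‖ ≤ ρ / 4)
    {l : ℝ} (hl0 : 0 < l) (hl1 : l < 1) {μ : ℝ} (hμ : μ = 1 - ρ / (8 * D) * (1 - l))
    (hμ0 : 0 < μ) :
    (K ∩ coneSet z1 xh κ) \ (hom z1 μ '' (K ∩ coneSet z1 xh κ))
      ⊆ K \ (hom p l '' K + segment ℝ (0 : E3) ((1 - l) • (q - p))) := by
  rintro y ⟨⟨hyK, hyC⟩, hynot⟩
  refine ⟨hyK, fun hyS => hynot ?_⟩
  obtain ⟨t, ht0, b, hb, hyeq⟩ := hyC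
  have hz1K : z1 ∈ K := hd1.mem hρ.le
  have ht1 : t < 1 := core_t_lt_one hKv hz1K (hbK b hb) hyeq hyK
  obtain ⟨θ, hθ0, hθ1, hY⟩ := exists_of_mem_sweep hl0 hyS
  obtain ⟨τ, hτ0, hτ1, hζ⟩ := core_witness hKv hp hq hxK hs1 hs1' hs2 hs2' hz1 hz2 hρ hd1 hd2
    ht0 ht1 (hbx b hb) hyeq hθ0 hθ1
  have hyd := core_deep_y hKv (by positivity : (0 : ℝ) ≤ 3 * ρ / 8) hτ0 hτ1 hl0 hl1 hζ hY
  have hplus := core_final hρ hD (hDK y hyK) hl0.le hl1 hyd
  rw [← hμ] at hplus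
  refine ⟨z1 + (1 / μ) • (y - z1), ⟨hplus, ?_⟩, ?_⟩
  · refine ⟨t / μ, by positivity, b, hb, ?_⟩
    rw [hyeq, add_sub_cancel_left, smul_smul]
    congr 2
    ring
  · simp only [hom]
    rw [add_sub_cancel_left, smul_smul, mul_one_div_cancel hμ0.ne', one_smul, add_sub_cancel]

/-- The measure-theoretic step: a set `Q ⊆ K` whose part outside its own shrunk copy is missed
by `S` has volume at most `vol K - vol S + μ ^ 3 vol Q`. -/
theorem measure_step {K Q S : Set E3} (hKfin : volume K ≠ ⊤) (hQK : Q ⊆ K) (hSK : S ⊆ K)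
    (hS : IsCompact S) {μ : ℝ} (hμ0 : 0 ≤ μ) (z1 : E3)
    (hincl : Q \ (hom z1 μ '' Q) ⊆ K \ S) :
    (volume Q).toReal
      ≤ ((volume K).toReal - (volume S).toReal) + μ ^ 3 * (volume Q).toReal := by
  have hQfin : volume Q ≠ ⊤ := ne_top_of_le_ne_top hKfin (measure_mono hQK)
  have hdiff : volume (K \ S) = volume K - volume S :=
    measure_sdiff hSK hS.isClosed.measurableSet.nullMeasurableSet
      (ne_top_of_le_ne_top hKfin (measure_mono hSK))
  have hKS : volume (K \ S) ≠ ⊤ := ne_top_of_le_ne_top hKfin (measure_mono sdiff_subset)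
  have hcov : Q ⊆ (Q \ (hom z1 μ '' Q)) ∪ (hom z1 μ '' Q) := by
    intro y hy
    by_cases h : y ∈ hom z1 μ '' Q
    · exact Or.inr h
    · exact Or.inl ⟨hy, h⟩
  have h1 : volume Q ≤ volume (K \ S) + ENNReal.ofReal (μ ^ 3) * volume Q := by
    calc volume Q ≤ volume ((Q \ (hom z1 μ '' Q)) ∪ (hom z1 μ '' Q)) := measure_mono hcov
      _ ≤ volume (Q \ (hom z1 μ '' Q)) + volume (hom z1 μ '' Q) := measure_union_le _ _
      _ ≤ volume (K \ S) + ENNReal.ofReal (μ ^ 3) * volume Q := by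
          rw [volume_hom_image z1 hμ0]
          exact add_le_add (measure_mono hincl) le_rfl
  have hmul : ENNReal.ofReal (μ ^ 3) * volume Q ≠ ⊤ :=
    ENNReal.mul_ne_top ENNReal.ofReal_ne_top hQfin
  have h2 := ENNReal.toReal_mono (ENNReal.add_ne_top.mpr ⟨hKS, hmul⟩) h1
  rw [ENNReal.toReal_add hKS hmul, ENNReal.toReal_mul,
    ENNReal.toReal_ofReal (pow_nonneg hμ0 3), hdiff,
    ENNReal.toReal_sub_of_le (measure_mono hSK) hKfin] at h2
  exact h2

/-- The algebra behind the equality case. -/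
theorem alg_step {vQ V c l μ : ℝ} (hvQ : 0 ≤ vQ) (hV0 : 0 ≤ V) (hl1 : l < 1)
    (hμdef : μ = 1 - c * (1 - l)) (hμ0 : 0 ≤ μ) (hμ1 : μ ≤ 1)
    (h2 : vQ ≤ V - (l ^ 3 * V + l ^ 2 * (1 - l) * (3 * V)) + μ ^ 3 * vQ) :
    c * vQ ≤ 3 * V * (1 - l) := by
  have hμ3 : μ ^ 3 ≤ μ := by
    have h := mul_nonneg (mul_nonneg hμ0 (sub_nonneg.mpr hμ1)) (by linarith : (0 : ℝ) ≤ 1 + μ)
    nlinarith
  have ha : c * (1 - l) * vQ ≤ (1 - μ ^ 3) * vQ := by
    have e : c * (1 - l) = 1 - μ := by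
      rw [hμdef]
      ring
    rw [e]
    exact mul_le_mul_of_nonneg_right (by linarith) hvQ
  have hb : (1 - μ ^ 3) * vQ ≤ V * ((1 - l) ^ 2 * (1 + 2 * l)) := by
    have e : V * ((1 - l) ^ 2 * (1 + 2 * l))
        = V - (l ^ 3 * V + l ^ 2 * (1 - l) * (3 * V)) := by
      ring
    rw [e]
    linarith
  have hc' : V * ((1 - l) ^ 2 * (1 + 2 * l)) ≤ 3 * V * (1 - l) ^ 2 := by
    have h := mul_nonneg (mul_nonneg hV0 (sq_nonneg (1 - l))) (by linarith : (0 : ℝ) ≤ 1 - l)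
    nlinarith
  have h4 : (1 - l) * (c * vQ) ≤ (1 - l) * (3 * V * (1 - l)) := by
    have e1 : (1 - l) * (c * vQ) = c * (1 - l) * vQ := by ring
    have e2 : (1 - l) * (3 * V * (1 - l)) = 3 * V * (1 - l) ^ 2 := by ring
    rw [e1, e2]
    linarith
  exact le_of_mul_le_mul_left h4 (by linarith)

/-- The configuration extracted from a boundary point `x` with interior points of `K` on both
segments `[p, x]` and `[q, x]`. -/
theorem exists_config {K : Set E3} (hK : Body K) {p q x : E3} (hp : p ∈ K) (hq : q ∈ K)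
    (hx : x ∈ frontier K) (h1 : ¬ segment ℝ p x ⊆ frontier K)
    (h2 : ¬ segment ℝ q x ⊆ frontier K) :
    ∃ (z1 z2 xh : E3) (s1 s2 ρ D κ : ℝ), 0 ≤ s1 ∧ s1 < 1 ∧ 0 ≤ s2 ∧ s2 < 1 ∧
      z1 = p + s1 • (x - p) ∧ z2 = q + s2 • (x - q) ∧ 0 < ρ ∧ Deep K ρ z1 ∧ Deep K ρ z2 ∧
      ρ ≤ D ∧ (∀ y ∈ K, ‖y - z1‖ ≤ D) ∧ 0 < κ ∧ (∀ b ∈ Metric.ball xh κ, b ∉ K) ∧
      (∀ b ∈ Metric.ball xh κ, ‖b - x‖ ≤ ρ / 4) ∧ x ∈ K := by
  rw [Set.not_subset] at h1 h2
  obtain ⟨z1, hz1s, hz1f⟩ := h1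
  obtain ⟨z2, hz2s, hz2f⟩ := h2
  have hcl : IsClosed K := hK.compact.isClosed
  have hfr : frontier K = K \ interior K := hcl.frontier_eq
  have hxK : x ∈ K := by
    rw [hfr] at hx
    exact hx.1
  have hxni : x ∉ interior K := by
    rw [hfr] at hx
    exact hx.2
  have hz1K : z1 ∈ K := hK.conv.segment_subset hp hxK hz1s
  have hz2K : z2 ∈ K := hK.conv.segment_subset hq hxK hz2s
  have hz1i : z1 ∈ interior K := by
    by_contra h
    exact hz1f (by rw [hfr]; exact ⟨hz1K, h⟩)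
  have hz2i : z2 ∈ interior K := by
    by_contra h
    exact hz2f (by rw [hfr]; exact ⟨hz2K, h⟩)
  -- parametrisations of `z1`, `z2`
  rw [segment_eq_image'] at hz1s hz2s
  obtain ⟨s1, ⟨hs1, hs1le⟩, hz1⟩ := hz1s
  obtain ⟨s2, ⟨hs2, hs2le⟩, hz2⟩ := hz2s
  simp only at hz1 hz2
  have hs1' : s1 < 1 := by
    rcases hs1le.eq_or_lt with h | h
    · exfalso
      apply hxni
      have e : z1 = x := by rw [← hz1, h, one_smul, add_sub_cancel]
      rw [← e]
      exact hz1i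
    · exact h
  have hs2' : s2 < 1 := by
    rcases hs2le.eq_or_lt with h | h
    · exfalso
      apply hxni
      have e : z2 = x := by rw [← hz2, h, one_smul, add_sub_cancel]
      rw [← e]
      exact hz2i
    · exact h
  -- a common radius
  obtain ⟨ρ1, hρ1, hb1⟩ := Metric.isOpen_iff.mp isOpen_interior z1 hz1i
  obtain ⟨ρ2, hρ2, hb2⟩ := Metric.isOpen_iff.mp isOpen_interior z2 hz2i
  obtain ⟨ρ, hρdef⟩ : ∃ ρ : ℝ, ρ = min ρ1 ρ2 / 2 := ⟨_, rfl⟩
  have hmin : 0 < min ρ1 ρ2 := lt_min hρ1 hρ2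
  have hρ : 0 < ρ := by
    rw [hρdef]
    linarith
  have hρlt1 : ρ < ρ1 := by
    have := min_le_left ρ1 ρ2
    rw [hρdef]
    linarith
  have hρlt2 : ρ < ρ2 := by
    have := min_le_right ρ1 ρ2
    rw [hρdef]
    linarith
  have hd1 : Deep K ρ z1 := by
    intro u hu
    apply interior_subset
    apply hb1
    rw [Metric.mem_ball, dist_eq_norm, add_sub_cancel_left]
    linarith
  have hd2 : Deep K ρ z2 := by
    intro u hu
    apply interior_subset
    apply hb2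
    rw [Metric.mem_ball, dist_eq_norm, add_sub_cancel_left]
    linarith
  -- a bound for the distances to `z1`
  obtain ⟨R, hR⟩ := hK.compact.isBounded.subset_closedBall z1
  obtain ⟨D, hDdef⟩ : ∃ D : ℝ, D = max R ρ := ⟨_, rfl⟩
  have hDρ : ρ ≤ D := by
    rw [hDdef]
    exact le_max_right _ _
  have hDK : ∀ y ∈ K, ‖y - z1‖ ≤ D := by
    intro y hy
    have h := hR hy
    rw [Metric.mem_closedBall, dist_eq_norm] at h
    rw [hDdef]
    exact h.trans (le_max_left _ _)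
  -- the outer point
  have hnx : 0 ≤ ‖x - z1‖ := norm_nonneg _
  obtain ⟨δ, hδdef⟩ : ∃ δ : ℝ, δ = ρ / (8 * (‖x - z1‖ + 1)) := ⟨_, rfl⟩
  have hδ : 0 < δ := by
    rw [hδdef]
    positivity
  have hδx : δ * ‖x - z1‖ ≤ ρ / 8 := by
    have h : δ * (8 * (‖x - z1‖ + 1)) = ρ := by
      rw [hδdef]
      field_simp
    nlinarith
  obtain ⟨xh, hxhdef⟩ : ∃ xh : E3, xh = x + δ • (x - z1) := ⟨_, rfl⟩
  have hxh : xh ∉ K := by
    rw [hxhdef]
    exact outer_point hK.conv hxni hρ hd1 hδ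
  obtain ⟨κ0, hκ0, hbK0⟩ := Metric.isOpen_iff.mp hcl.isOpen_compl xh hxh
  obtain ⟨κ, hκdef⟩ : ∃ κ : ℝ, κ = min κ0 (ρ / 8) := ⟨_, rfl⟩
  have hκ : 0 < κ := by
    rw [hκdef]
    exact lt_min hκ0 (by positivity)
  have hbK : ∀ b ∈ Metric.ball xh κ, b ∉ K := by
    intro b hb
    exact hbK0 (Metric.ball_subset_ball (by rw [hκdef]; exact min_le_left _ _) hb)
  have hbx : ∀ b ∈ Metric.ball xh κ, ‖b - x‖ ≤ ρ / 4 := by
    intro b hb
    rw [Metric.mem_ball, dist_eq_norm] at hb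
    have e : b - x = (b - xh) + δ • (x - z1) := by
      rw [hxhdef]
      abel
    rw [e]
    calc ‖(b - xh) + δ • (x - z1)‖ ≤ ‖b - xh‖ + ‖δ • (x - z1)‖ := norm_add_le _ _
      _ ≤ ρ / 8 + ρ / 8 := by
          apply add_le_add
          · exact hb.le.trans (by rw [hκdef]; exact min_le_right _ _)
          · rw [norm_smul, Real.norm_eq_abs, abs_of_pos hδ]
            exact hδx
      _ = ρ / 4 := by ring
  exact ⟨z1, z2, xh, s1, s2, ρ, D, κ, hs1, hs1', hs2, hs2', hz1.symm, hz2.symm, hρ, hd1, hd2,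
    hDρ, hDK, hκ, hbK, hbx, hxK⟩

/-- `M3b` from the skeleton statements `M1a`, `M1b`, `M1e`: if `Ahat K (q - p) = 3 vol K`, then
every boundary point `x` of `K` has `[p, x]` or `[q, x]` inside the boundary. -/
theorem M3b_of
    (hM1a : ∀ {K : Set E3}, IsCompact K → Convex ℝ K → K.Nonempty → ∀ (a b : E3),
      OrthoPair a b → ∀ (w : E3), inner ℝ w a = 0 → inner ℝ w b = 0 →
        Ahat K w = ‖w‖ * (volume (planeCoords a b '' K)).toReal)
    (hM1b : ∀ w : E3, ∃ a b : E3, OrthoPair a b ∧ inner ℝ w a = 0 ∧ inner ℝ w b = 0)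
    (hM1e : ∀ (c : E3) {r : ℝ}, 0 < r → ∀ (K : Set E3) (w : E3),
      Ahat (hom c r '' K) (r • w) = r ^ 3 * Ahat K w)
    {K : Set E3} (hK : Body K) {p q : E3} (hp : p ∈ K) (hq : q ∈ K)
    (heff : Ahat K (q - p) = 3 * (volume K).toReal) {x : E3} (hx : x ∈ frontier K) :
    segment ℝ p x ⊆ frontier K ∨ segment ℝ q x ⊆ frontier K := by
  by_contra hcon
  rw [not_or] at hcon
  obtain ⟨z1, z2, xh, s1, s2, ρ, D, κ, hs1, hs1', hs2, hs2', hz1, hz2, hρ, hd1, hd2, hDρ, hDK,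
    hκ, hbK, hbx, hxK⟩ := exists_config hK hp hq hx hcon.1 hcon.2
  have hDpos : 0 < D := lt_of_lt_of_le hρ hDρ
  -- volumes
  have hVfin : volume K ≠ ⊤ := hK.compact.measure_lt_top.ne
  have hQfin : volume (K ∩ coneSet z1 xh κ) ≠ ⊤ :=
    ne_top_of_le_ne_top hVfin (measure_mono inter_subset_left)
  have hvQ : 0 < (volume (K ∩ coneSet z1 xh κ)).toReal :=
    ENNReal.toReal_pos (cone_pos hρ hκ hd1).ne' hQfin
  have hV0 : 0 ≤ (volume K).toReal := ENNReal.toReal_nonneg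
  obtain ⟨c, hcdef⟩ : ∃ c : ℝ, c = ρ / (8 * D) := ⟨_, rfl⟩
  have hc0 : 0 < c := by
    rw [hcdef]
    positivity
  have hc8 : c ≤ 1 / 8 := by
    rw [hcdef, div_le_iff₀ (by positivity)]
    linarith
  -- the inequality for every `0 < l < 1`
  have key : ∀ l : ℝ, 0 < l → l < 1 →
      c * (volume (K ∩ coneSet z1 xh κ)).toReal ≤ 3 * (volume K).toReal * (1 - l) := by
    intro l hl0 hl1
    obtain ⟨μ, hμdef⟩ : ∃ μ : ℝ, μ = 1 - c * (1 - l) := ⟨_, rfl⟩
    have hμ78 : 7 / 8 ≤ μ := by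
      rw [hμdef]
      nlinarith
    have hμ1 : μ ≤ 1 := by
      rw [hμdef]
      nlinarith
    have hμ0 : 0 < μ := by linarith
    have hincl := cone_incl hK.conv hp hq hxK hs1 hs1' hs2 hs2' hz1 hz2 hρ hd1 hd2
      hDρ hDK hbK hbx hl0 hl1 (by rw [hμdef, hcdef]) hμ0
    have h2 := measure_step hVfin inter_subset_left
      (sweep_subset hK.conv hp hq hl0.le hl1.le) (sweep_compact hK.compact p _ l) hμ0.le z1
      hincl
    rw [sweep_volume hM1a hM1b hM1e hK hp q hl0 hl1, heff] at h2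
    exact alg_step hvQ.le hV0 hl1 hμdef hμ0.le hμ1 h2
  -- let `l → 1`
  have hlim : Filter.Tendsto (fun l : ℝ => 3 * (volume K).toReal * (1 - l)) (𝓝[<] 1)
      (𝓝 (3 * (volume K).toReal * (1 - 1))) :=
    (Continuous.tendsto (by fun_prop) 1).mono_left nhdsWithin_le_nhds
  have hev : ∀ᶠ l in 𝓝[<] (1 : ℝ),
      c * (volume (K ∩ coneSet z1 xh κ)).toReal ≤ 3 * (volume K).toReal * (1 - l) := by
    have hmem : Set.Ioo (0 : ℝ) 1 ∈ 𝓝[<] (1 : ℝ) := Ioo_mem_nhdsLT (by norm_num)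
    filter_upwards [hmem] with l hl
    exact key l hl.1 hl.2
  have hfinal := le_of_tendsto_of_tendsto tendsto_const_nhds hlim hev
  have hpos := mul_pos hc0 hvQ
  linarith

end Vale.Agent.Lib.P243.R3.H19
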